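import Vale.Agent.P181.FD.H908.Num

/-!
# P181, FD: from the core with designs to `CoreL`
-/

set_option autoImplicit false

namespace Vale.Agent.P181.FD.H908

open Finset Vale.Agent.P181 Vale.Agent.P181.H280 Vale.Agent.P181.H59 Vale.Agent.P181.TS

/-- the core for one pair, with codes or stars for every length between `z` and `b / 2` -/
def CoreD : Prop := ∀ (a b C : ℕ) (z : ℝ), a ≤ b → 1 ≤ Real.log b →
  64 * Real.log b ^ (C + 1) ≤ z →
  (∀ m N : ℕ, z ≤ m → m ≤ b / 2 → ((b : ℝ) / m) * Real.log b ^ C ≤ N →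
    ∀ len : Fin N → ℕ, (∀ c, m ≤ len c ∧ len c ≤ 2 * m ∧ len c ≤ b / 2) →
    TDes b N len ∨ ∃ R : ℕ, R ≤ m ∧ Design b R N len) →
  ∀ lam : Fin a → ℕ, Antitone lam → ∑ i, lam i = a * b → ∀ i : Fin a,
  (b : ℝ) ^ 2 * z ≤ ((i : ℕ) + 1) * ((b : ℝ) - a) * min (b : ℝ) (lam i) →
  plethMult a b a lam ≤ plethMult b a a lam

/-- all pairs `a ≤ b ≤ a ^ 2`, one row -/
def CoreL : Prop := ∃ (C : ℝ) (c : ℕ), 0 < C ∧ ∀ a b : ℕ, 1 ≤ a → a ≤ b → b ≤ a ^ 2 →
  ∀ lam : Fin a → ℕ, Antitone lam → ∑ i, lam i = a * b → ∀ i : Fin a,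
  C * (1 + Real.log a) ^ c * (b : ℝ) ^ 2 ≤
    ((i : ℕ) + 1) * ((b : ℝ) - a) * min (b : ℝ) (lam i) →
  plethMult a b a lam ≤ plethMult b a a lam

theorem coreL (hA : S6.DesAll) (hS : DesShort) (hC : CoreD) : CoreL := by
  obtain ⟨C0, K, b0, -, hb03, hD⟩ := desLog hA hS
  refine ⟨((K : ℝ) + 64) * 2 ^ (C0 + 1) + b0 + 1, C0 + 1, by positivity,
    fun a b ha1 hab hba lam hlam hsum i hmain => ?_⟩
  have haR : (1 : ℝ) ≤ a := by exact_mod_cast ha1
  have hb1 : 1 ≤ b := ha1.trans hab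
  have hbR : (1 : ℝ) ≤ b := by exact_mod_cast hb1
  have habR : (a : ℝ) ≤ b := by exact_mod_cast hab
  have hla : 0 ≤ Real.log a := Real.log_nonneg haR
  have hL1 : (1 : ℝ) ≤ (1 + Real.log a) ^ (C0 + 1) := one_le_pow₀ (by linarith)
  have hb0 : b0 ≤ b := by
    by_contra hcon
    have h1 : (b : ℝ) < b0 := by exact_mod_cast Nat.lt_of_not_le hcon
    have h2 : (((i : ℕ) : ℝ) + 1) ≤ a := by exact_mod_cast i.2
    have h3 : min (b : ℝ) (lam i) ≤ b := min_le_left _ _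
    have h3' : 0 ≤ min (b : ℝ) (lam i) := le_min (by linarith) (Nat.cast_nonneg _)
    have h4 : (((i : ℕ) : ℝ) + 1) * ((b : ℝ) - a) * min (b : ℝ) (lam i) ≤ a * b * b := by
      have h5 : (((i : ℕ) : ℝ) + 1) * ((b : ℝ) - a) ≤ a * b :=
        mul_le_mul h2 (by linarith) (by linarith) (by linarith)
      exact mul_le_mul h5 h3 h3' (by positivity)
    have h5 : ((b0 : ℝ) + 1) * (b : ℝ) ^ 2 ≤
        (((K : ℝ) + 64) * 2 ^ (C0 + 1) + b0 + 1) * (1 + Real.log a) ^ (C0 + 1) * (b : ℝ) ^ 2 := by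
      refine mul_le_mul_of_nonneg_right ?_ (by positivity)
      have h6 : (b0 : ℝ) + 1 ≤ ((K : ℝ) + 64) * 2 ^ (C0 + 1) + b0 + 1 := by
        have : (0 : ℝ) ≤ ((K : ℝ) + 64) * 2 ^ (C0 + 1) := by positivity
        linarith
      calc (b0 : ℝ) + 1 ≤ (((K : ℝ) + 64) * 2 ^ (C0 + 1) + b0 + 1) * 1 := by linarith
        _ ≤ _ := mul_le_mul_of_nonneg_left hL1 (by positivity)
    have h6 := h5.trans (hmain.trans h4)
    have h7 : ((b0 : ℝ) + 1) * (b : ℝ) ^ 2 ≤ (b : ℝ) * (b : ℝ) ^ 2 := by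
      refine h6.trans ?_
      have : (a : ℝ) * b * b ≤ b * b * b := by gcongr
      nlinarith
    have h8 := le_of_mul_le_mul_right h7 (by positivity)
    linarith
  have hb3 : 3 ≤ b := hb03.trans hb0
  have hl : 1 ≤ Real.log b := by
    have h1 : Real.exp 1 ≤ b := by
      have h2 := Real.exp_one_lt_d9
      have h3 : (3 : ℝ) ≤ b := by exact_mod_cast hb3
      linarith
    rw [← Real.log_exp 1]
    exact Real.log_le_log (Real.exp_pos 1) h1
  have hlb : Real.log b ≤ 2 * (1 + Real.log a) := by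
    have h1 : Real.log b ≤ Real.log ((a : ℝ) ^ 2) :=
      Real.log_le_log (by linarith) (by exact_mod_cast hba)
    rw [Real.log_pow] at h1
    push_cast at h1
    linarith
  have hp0 : 0 ≤ Real.log b ^ (C0 + 1) := by positivity
  refine hC a b C0 (((K : ℝ) + 64) * Real.log b ^ (C0 + 1)) hab hl ?_ ?_ lam hlam hsum i ?_
  · have : (0 : ℝ) ≤ (K : ℝ) * Real.log b ^ (C0 + 1) := by positivity
    linarith
  · intro m N hm
    refine hD b m N hb0 ?_
    linarith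
  · refine le_trans ?_ hmain
    have h1 : Real.log b ^ (C0 + 1) ≤ 2 ^ (C0 + 1) * (1 + Real.log a) ^ (C0 + 1) := by
      rw [← mul_pow]
      exact pow_le_pow_left₀ (by linarith) hlb _
    have h2 : ((K : ℝ) + 64) * Real.log b ^ (C0 + 1) ≤
        (((K : ℝ) + 64) * 2 ^ (C0 + 1) + b0 + 1) * (1 + Real.log a) ^ (C0 + 1) := by
      calc ((K : ℝ) + 64) * Real.log b ^ (C0 + 1) ≤
            ((K : ℝ) + 64) * (2 ^ (C0 + 1) * (1 + Real.log a) ^ (C0 + 1)) :=
            mul_le_mul_of_nonneg_left h1 (by positivity)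
        _ = ((K : ℝ) + 64) * 2 ^ (C0 + 1) * (1 + Real.log a) ^ (C0 + 1) := by ring
        _ ≤ _ := by
            refine mul_le_mul_of_nonneg_right ?_ (by linarith)
            have : (0 : ℝ) ≤ b0 := Nat.cast_nonneg _
            linarith
    calc (b : ℝ) ^ 2 * (((K : ℝ) + 64) * Real.log b ^ (C0 + 1)) =
          ((K : ℝ) + 64) * Real.log b ^ (C0 + 1) * (b : ℝ) ^ 2 := by ring
      _ ≤ _ := mul_le_mul_of_nonneg_right h2 (by positivity)

end Vale.Agent.P181.FD.H908
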