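import Vale.Agent.P181.TS.Spec

/-!
# P181, FD: a design for every length between `K (log b) ^ (C + 1)` and `b / 2`
-/

set_option autoImplicit false

namespace Vale.Agent.P181.FD.H908

open Finset Vale.Agent.P181 Vale.Agent.P181.H59 Vale.Agent.P181.TS

theorem log2_le {b m : ℕ} (hl : 1 ≤ Real.log b) (hm : 2048 * Real.log b ≤ (m : ℝ)) :
    256 * (Nat.log 2 b + 4) ≤ m := by
  have hb : b ≠ 0 := by
    rintro rfl
    simp at hl
    linarith
  have h1 : (2 : ℝ) ^ (Nat.log 2 b) ≤ b := by exact_mod_cast Nat.pow_log_le_self 2 hb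
  have h2 : (Nat.log 2 b : ℝ) * Real.log 2 ≤ Real.log b := by
    have h3 := Real.log_le_log (by positivity) h1
    rwa [Real.log_pow] at h3
  have h4 : (0.69 : ℝ) < Real.log 2 := by
    have := Real.log_two_gt_d9
    linarith
  have h5 : (Nat.log 2 b : ℝ) * 0.69 ≤ Real.log b :=
    (mul_le_mul_of_nonneg_left h4.le (Nat.cast_nonneg _)).trans h2
  have h6 : (256 * (Nat.log 2 b + 4) : ℝ) ≤ m := by nlinarith
  exact_mod_cast h6

/-- the design for every length: codes for `m ^ 3 ≤ b`, stars beyond -/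
theorem desLog (hA : S6.DesAll) (hS : DesShort) : ∃ C K b0 : ℕ, 4 ≤ C ∧ 3 ≤ b0 ∧
    ∀ b m N : ℕ, b0 ≤ b → (K : ℝ) * Real.log b ^ (C + 1) ≤ m → m ≤ b / 2 →
    ((b : ℝ) / m) * Real.log b ^ C ≤ N →
    ∀ len : Fin N → ℕ, (∀ c, m ≤ len c ∧ len c ≤ 2 * m ∧ len c ≤ b / 2) →
    TDes b N len ∨ ∃ R : ℕ, R ≤ m ∧ Design b R N len := by
  obtain ⟨CA, bA, hA'⟩ := hA (1 / 3) 1 (by norm_num) one_pos
  obtain ⟨bS, hS'⟩ := hS
  refine ⟨max CA 4, 2048, max (max bA bS) 3, le_max_right _ _, le_max_right _ _,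
    fun b m N hb hm hmb hN len hlen => ?_⟩
  have hbA : bA ≤ b := le_trans (le_trans (le_max_left _ _) (le_max_left _ _)) hb
  have hbS : bS ≤ b := le_trans (le_trans (le_max_right _ _) (le_max_left _ _)) hb
  have hb3 : 3 ≤ b := le_trans (le_max_right _ _) hb
  have hbR : (0 : ℝ) < b := by
    have : 0 < b := by omega
    exact_mod_cast this
  have hl : 1 ≤ Real.log b := by
    have h1 : Real.exp 1 ≤ b := by
      have h2 := Real.exp_one_lt_d9
      have h3 : (3 : ℝ) ≤ b := by exact_mod_cast hb3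
      linarith
    rw [← Real.log_exp 1]
    exact Real.log_le_log (Real.exp_pos 1) h1
  have hbm : 0 ≤ (b : ℝ) / m := by positivity
  have hpow : ∀ n : ℕ, n ≤ max CA 4 → ((b : ℝ) / m) * Real.log b ^ n ≤ N := fun n hn =>
    (mul_le_mul_of_nonneg_left (pow_le_pow_right₀ hl hn) hbm).trans hN
  rcases Nat.lt_or_ge b (m ^ 3) with h | h
  · refine Or.inr (hA' b (b / 2) m N hbA ?_ ?_ hmb (hpow _ (le_max_left _ _)) len hlen)
    · have h1 : ((b / 2 : ℕ) : ℝ) ≤ (b : ℝ) / 2 := Nat.cast_div_le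
      linarith
    · have h1 : (b : ℝ) ≤ (m : ℝ) ^ (3 : ℕ) := by exact_mod_cast h.le
      calc (b : ℝ) ^ (1 / 3 : ℝ) ≤ ((m : ℝ) ^ (3 : ℕ)) ^ (1 / 3 : ℝ) :=
            Real.rpow_le_rpow hbR.le h1 (by norm_num)
        _ = m := by
            rw [← Real.rpow_natCast, ← Real.rpow_mul (Nat.cast_nonneg _)]
            norm_num
  · refine Or.inl (hS' b m N hbS (log2_le hl ?_) h (hpow 4 (le_max_right _ _)) len
      fun c => ⟨(hlen c).1, (hlen c).2.1⟩)
    calc 2048 * Real.log b ≤ 2048 * Real.log b ^ (max CA 4 + 1) :=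
          mul_le_mul_of_nonneg_left (le_self_pow₀ hl (Nat.succ_ne_zero _)) (by norm_num)
      _ ≤ m := by exact_mod_cast hm

end Vale.Agent.P181.FD.H908
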